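import Vale.Agent.P122.Strip.Main

/-! Restriction to positively curved separable surfaces in `ℝ³`: every exponent above three, for
data with one derivative in one variable. -/

namespace Vale.Agent.Results.P122.OneDerivativeFullRange

open MeasureTheory Set
open Vale.Agent.P122.Strip

/-- For the graph of `φ ξ + ψ u` over `[-1, 1]²` with `φ''`, `ψ''` bounded below by a positive
constant, the extension of `f (ξ, u) = g ξ + ∫ s in -1..u, F (ξ, s)` has `Lᵖ(ℝ³)` norm at most
`C (‖g‖ₚ + ‖F‖ₚ)` for every `p > 3`. -/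
theorem result :
    ∀ (φ ψ : ℝ → ℝ) (c : ℝ), 0 < c → ContDiff ℝ 2 φ → ContDiff ℝ 2 ψ →
      (∀ u ∈ Icc (-1 : ℝ) 1, c ≤ deriv (deriv φ) u) →
      (∀ u ∈ Icc (-1 : ℝ) 1, c ≤ deriv (deriv ψ) u) →
      ∀ p : ℝ, 3 < p → ∃ C : ENNReal, C ≠ ⊤ ∧
        ∀ (g : ℝ → ℂ) (F : ℝ × ℝ → ℂ), Measurable g → Measurable F →
          MemLp g (ENNReal.ofReal p) (volume.restrict (Icc (-1) 1)) →
          MemLp F (ENNReal.ofReal p)
            ((volume.restrict (Icc (-1) 1)).prod (volume.restrict (Icc (-1) 1))) →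
          eLpNorm (fun x : ℝ × ℝ × ℝ =>
              ∫ q : ℝ × ℝ, (g q.1 + ∫ s in (-1 : ℝ)..q.2, F (q.1, s)) *
                Complex.exp ((2 * Real.pi *
                  (x.1 * q.1 + x.2.1 * q.2 + x.2.2 * (φ q.1 + ψ q.2)) : ℝ) * Complex.I)
                ∂(volume.restrict (Icc (-1) 1)).prod (volume.restrict (Icc (-1) 1)))
            (ENNReal.ofReal p) volume ≤
          C * (eLpNorm g (ENNReal.ofReal p) (volume.restrict (Icc (-1) 1)) +
            eLpNorm F (ENNReal.ofReal p)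
              ((volume.restrict (Icc (-1) 1)).prod (volume.restrict (Icc (-1) 1)))) := by
  intro φ ψ c hc hφ hψ hφc hψc p hp
  exact prim_bound (c := c) (d := c) ⟨hc, hφ, hφc⟩ ⟨hc, hψ, hψc⟩ hp

end Vale.Agent.Results.P122.OneDerivativeFullRange
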